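import Vale.Agent.P082.Final
import Vale.Agent.P082.AvgCB

/-! Quantitative vanishing of bounded Hochschild cohomology. -/

namespace Vale.Agent.P096

open Vale.Agent.P104 Vale.Agent.P082 Finset

universe u

theorem barQ {A : Type*} [NormedRing A] [NormedAlgebra ℂ A] (h1 : ‖(1 : A)‖ ≤ 1) (k : ℕ)
    (f : ContinuousMultilinearMap ℂ (fun _ : Fin (k + 1) => A) A) (hf : ∀ a, hochD f a = 0) :
    ∃ F : List A → A, Coch F (k + 3) ‖f‖ ∧ Cocyc F (k + 1) ∧ ∀ C', Sol F (k + 1) 1 C' →
      ∃ g : ContinuousMultilinearMap ℂ (fun _ : Fin k => A) A, ‖g‖ ≤ C' ∧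
        ∀ a, f a = hochD g a := by
  let F : List A → A := fun l => if l.length = k + 3 then
    l.headD 0 * f (fun i => l.tail.getD i 0) * l.getLastD 0 else 0
  have F0 : ∀ l : List A, l.length ≠ k + 3 → F l = 0 := fun l hl => if_neg hl
  have F1 : ∀ y w (l : List A), l.length = k + 1 →
      F (y :: (l ++ [w])) = y * f (fun i => l.getD i 0) * w := fun y w l hl => by
    have : (fun i : Fin (k + 1) => (l ++ [w]).getD i 0) = fun i : Fin (k + 1) => l.getD i 0 :=
      funext fun i => List.getD_append _ _ _ _ (by rw [hl]; exact i.2)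
    simp only [F, List.tail_cons, this]
    rw [if_pos (by simp [hl]), ← List.cons_append, List.getLastD_concat]
    rfl
  have F2 : ∀ y w (x : Fin (k + 1) → A), F (y :: (List.ofFn x ++ [w])) = y * f x * w :=
    fun y w x => by
      rw [F1 _ _ _ (by simp)]
      congr 3
      ext i
      rw [List.getD_eq_getElem _ _ (by simpa using i.2), List.getElem_ofFn]
  have sp : ∀ (n : ℕ) (l : List A), l.length = n + 2 →
      ∃ (y w : A) (x : Fin n → A), l = y :: (List.ofFn x ++ [w]) := fun n l hl => by
    obtain _ | ⟨y, l⟩ := l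
    · simp at hl
    obtain ⟨l, w, rfl⟩ := (List.eq_nil_or_concat' l).resolve_left (by rintro rfl; simp at hl)
    obtain rfl : l.length = n := by simpa using hl
    exact ⟨y, w, l.get, by rw [List.ofFn_get]⟩
  have lm : ∀ (x y : A) (l : List A), F (x * y :: l) = x * F (y :: l) := fun x y l => by
    simp only [F, List.length_cons, List.headD_cons, List.tail_cons, mul_ite, mul_zero, mul_assoc]
    refine ite_congr rfl (fun h => ?_) fun _ => rfl
    cases l
    · simp at h
    · rfl
  have rm : ∀ (l : List A) (y x : A), F (l ++ [y * x]) = F (l ++ [y]) * x := fun l y x => by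
    by_cases c : l.length = k + 2
    · obtain _ | ⟨y', l⟩ := l
      · simp at c
      rw [List.cons_append, List.cons_append, F1 _ _ _ (by simpa using c),
        F1 _ _ _ (by simpa using c), mul_assoc, mul_assoc, mul_assoc]
    · rw [F0 _ (by simpa using c), F0 _ (by simpa using c), zero_mul]
  refine ⟨F, ⟨fun l₁ l₂ => ?_, lm, rm, fun l => ?_, F0⟩, fun l hl => ?_, ?_⟩
  · by_cases c : l₁.length + l₂.length = k + 2
    swap
    · have : ∀ a, F (l₁ ++ a :: l₂) = 0 := fun a => F0 _ (by simp; omega)
      exact ⟨by simp [this], by simp [this]⟩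
    obtain _ | ⟨y, l₁⟩ := l₁
    · have : ∀ a, F (a :: l₂) = a * F (1 :: l₂) := fun a => by rw [← lm, mul_one]
      exact ⟨fun a b => by simp only [List.nil_append, this (a + b), this a, this b, add_mul],
        fun t a => by simp only [List.nil_append, this (t • a), this a, smul_mul_assoc]⟩
    rcases List.eq_nil_or_concat' l₂ with rfl | ⟨l₂, w, rfl⟩
    · have : ∀ a, F (y :: l₁ ++ [a]) = F (y :: l₁ ++ [1]) * a := fun a => by rw [← rm, one_mul]
      exact ⟨fun a b => by simp only [this (a + b), this a, this b, mul_add],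
        fun t a => by simp only [this (t • a), this a, mul_smul_comm]⟩
    have e : ∀ a, F (y :: l₁ ++ a :: (l₂ ++ [w])) = _ := fun a => by
      rw [List.cons_append, ← List.cons_append (a := a), ← List.append_assoc,
        F1 _ _ _ (by simp at c ⊢; omega), getD_update _ _ (by simp at c; omega)]
    exact ⟨fun a b => by simp only [e, f.map_update_add, mul_add, add_mul],
      fun t a => by simp only [e, f.map_update_smul, mul_smul_comm, smul_mul_assoc]⟩
  · by_cases c : l.length = k + 3
    · obtain ⟨y, w, x, rfl⟩ := sp _ l c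
      rw [F2]
      refine (norm_mul₃_le).trans ?_
      simp only [List.map_cons, List.prod_cons, List.map_append, List.prod_append, List.map_ofFn,
        List.prod_ofFn, List.map_nil, List.prod_nil, mul_one, Function.comp_apply]
      calc _ ≤ ‖y‖ * (‖f‖ * ∏ i, ‖x i‖) * ‖w‖ := by gcongr; exact f.le_opNorm x
        _ = _ := by ring
    · rw [F0 l c, norm_zero]
      exact mul_nonneg (norm_nonneg _) (prod_norm_nonneg l)
  · obtain ⟨y, w, x, rfl⟩ := sp _ l hl
    simp only [bd_hoch lm rm, F2, one_mul, mul_one]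
    rw [hf x, mul_zero, zero_mul]
  · rintro C ⟨β, hβ, h2⟩
    have e : ∀ (x : Fin k → A) (j : Fin k) (a : A) [DecidableEq (Fin k)], List.ofFn
        (Function.update x j a) = (List.ofFn x).take j ++ a :: (List.ofFn x).drop (j + 1) := by
      intro x j a _
      refine Eq.trans ?_ ((List.set_eq_take_append_cons_drop (l := List.ofFn x) (i := j)
        (a := a)).trans (if_pos (by simp)))
      refine List.ext_getElem (by simp) fun i _ _ => ?_
      simp [List.getElem_set, Function.update_apply, Fin.ext_iff, eq_comm]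
    let g : MultilinearMap ℂ (fun _ : Fin k => A) A :=
      { toFun := fun x => β (1 :: (List.ofFn x ++ [1]))
        map_update_add' := fun x j a b => by
          simp only [e, List.append_assoc, List.cons_append]
          exact (hβ.ml (1 :: _) _).1 a b
        map_update_smul' := fun x j t a => by
          simp only [e, List.append_assoc, List.cons_append]
          exact (hβ.ml (1 :: _) _).2 t a }
    have C0 : 0 ≤ C := by simpa using (norm_nonneg _).trans (hβ.bdd [])
    refine ⟨g.mkContinuous C fun x => (hβ.bdd _).trans (mul_le_mul_of_nonneg_left ?_ C0),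
      g.mkContinuous_norm_le C0 _, fun a => ?_⟩
    · simp only [List.map_cons, List.prod_cons, List.map_append, List.prod_append, List.map_ofFn,
        List.prod_ofFn, List.map_nil, List.prod_nil, mul_one, Function.comp_apply]
      have : 0 ≤ ∏ i, ‖x i‖ := prod_nonneg fun _ _ => norm_nonneg _
      exact (mul_le_of_le_one_left (by positivity) h1).trans (mul_le_of_le_one_right this h1)
    · have := h2 (1 :: (List.ofFn a ++ [1])) (by simp)
      rw [bd_hoch hβ.lm hβ.rm, F2] at this
      simp only [one_mul, mul_one] at this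
      exact this.symm

theorem vanishQ {K : Type u} [NormedAddCommGroup K] [InnerProductSpace ℂ K] [CompleteSpace K]
    (M : VonNeumannAlgebra K) (k : ℕ)
    (f : ContinuousMultilinearMap ℂ (fun _ : Fin (k + 1) => Alg M) (Alg M))
    (hf : ∀ a, hochD f a = 0) :
    ∃ g : ContinuousMultilinearMap ℂ (fun _ : Fin k => Alg M) (Alg M),
      ‖g‖ ≤ (k + 3) * ‖f‖ ∧ ∀ a, f a = hochD g a := by
  have h1 : ‖(1 : Alg M)‖ ≤ 1 := alg_norm_one
  obtain ⟨F, hF, hc, hfin⟩ := barQ h1 k f hf
  have hC0 := norm_nonneg f
  generalize ‖f‖ = C at *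
  refine hfin ((k + 3) * C) (glue F _ _ (by positivity) fun p hp hp0 => ?_)
  obtain ⟨z, hz, hz0, hpz, h⟩ := struct p hp hp0
  refine ⟨z, hz, hz0, hpz, ?_⟩
  have key : (∃ ρ, Avg (fun (ψ : Alg M →L[ℂ] Alg M) c => ‖ψ‖ ≤ c) ρ z) →
      Sol F (k + 1) z ((k + 3) * C) := fun ⟨ρ, hρ⟩ => by
    obtain ⟨β, hβ, h2⟩ := solAvg hC0 gauge_norm hρ hz.comm hF hc (slices_norm h1 hC0 hF)
    exact ⟨β, hβ.mono (by nlinarith [(k.cast_nonneg : (0 : ℝ) ≤ k)]), h2⟩
  rcases h with h | h | h
  · obtain ⟨G, H, hG1, hG2, hG3, hH1, hH2⟩ := copies M z F k C hC0 hz h hF hc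
    obtain ⟨hg, ρ, hρ⟩ := avgCB (M := M)
    obtain ⟨β, hβ, h2⟩ := solAvg hC0 hg hρ (by simp) hG1 hG2 hG3
    refine ⟨_, (hβ.sub hH1).mono (le_of_eq (by ring)), fun l hl => ?_⟩
    rw [bd_add, h2 l hl, hH2 l hl, mul_one, sub_sub_cancel]
  · exact key (avgI approxStmt z hz h)
  · exact key (avgII approxStmt (mainII cheb trunc design frames pairStmt) z hz h)

end Vale.Agent.P096
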