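import Vale.Agent.P096.GX0

/-! Approximately linear liftings for an arbitrary state. -/

namespace Vale.Agent.P096

open scoped InnerProductSpace ComplexOrder BigOperators
open Filter Topology Vale.Agent.P104 Vale.Agent.P082 Finset ContinuousLinearMap

universe u

/-- Lifting at a factorial vector. -/
def GLocStmt : Prop := ∃ C : ℝ, 1 ≤ C ∧ ∀ (K : Type u) [NormedAddCommGroup K]
  [InnerProductSpace ℂ K] [CompleteSpace K] [TopologicalSpace.SeparableSpace K]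
  (P Q : VonNeumannAlgebra K) (ζ : K) (δ : ℝ), 0 < δ → C * δ ≤ 1 → Near Q P δ → Near P Q δ →
  (∀ c ∈ Q, IsStarProjection c → (∀ x ∈ Q, c * x = x * c) → c ζ = 0 ∨ c ζ = ζ) →
  ∃ (q : K →L[ℂ] K) (Φ : Alg P →ₗ[ℂ] Alg Q), q ∈ Q ∧ IsStarProjection q ∧
    (∀ x ∈ Q, q * x = x * q) ∧ q ζ = ζ ∧ ∀ x, ‖(Φ x).1 - q * x.1 * q‖ ≤ C * δ * ‖x‖

/-- Approximately linear liftings for an arbitrary positive functional. -/
def GXStmt : Prop := ∃ C : ℝ, 1 ≤ C ∧ ∀ (A B D : Type u) [CStarAlgebra A] [CStarAlgebra B]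
  [CStarAlgebra D] [TopologicalSpace.SeparableSpace D] (iA : A →⋆ₐ[ℂ] D) (iB : B →⋆ₐ[ℂ] D)
  (δ : ℝ), 0 < δ → C * δ ≤ 1 → (∀ a, ∃ b, ‖iA a - iB b‖ ≤ δ * ‖a‖) →
  (∀ b, ∃ a, ‖iB b - iA a‖ ≤ δ * ‖b‖) → (∀ b, ‖iB b‖ = ‖b‖) → ∀ τ : B →ₗ[ℂ] ℂ,
  (∀ x, 0 ≤ τ (star x * x)) →
  ∀ (J R : Type u) [Fintype J] [Fintype R] (n : J → A) (c : R → J → ℂ),
  (∀ r, ∑ j, c r j • n j = 0) → ∀ η : ℝ, 0 < η → ∃ y : J → B,
    (∀ j, ‖iB (y j) - iA (n j)‖ ≤ C * δ * ‖n j‖) ∧
    ∀ r, (τ (star (∑ j, c r j • y j) * ∑ j, c r j • y j)).re ≤ η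

/-- The states. -/
def Sts (B : Type*) [CStarAlgebra B] : Set (B → ℂ) :=
  {f | (∀ a b, f (a + b) = f a + f b) ∧ (∀ (z : ℂ) a, f (z • a) = z * f a) ∧
    (∀ a, ‖f a‖ ≤ ‖a‖) ∧ f 1 = 1}

theorem sts_compact (B : Type*) [CStarAlgebra B] : IsCompact (Sts B) := by
  refine (isCompact_univ_pi fun b : B => isCompact_closedBall (0 : ℂ) ‖b‖).of_isClosed_subset ?_
    fun f hf b _ => mem_closedBall_zero_iff.2 (hf.2.2.1 b)
  simp only [Sts, Set.setOf_and, Set.setOf_forall]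
  refine .inter ?_ (.inter ?_ (.inter ?_ (isClosed_eq (by fun_prop) (by fun_prop))))
  · exact isClosed_iInter fun _ => isClosed_iInter fun _ => isClosed_eq (by fun_prop) (by fun_prop)
  · exact isClosed_iInter fun _ => isClosed_iInter fun _ => isClosed_eq (by fun_prop) (by fun_prop)
  · exact isClosed_iInter fun _ => isClosed_le (by fun_prop) (by fun_prop)

theorem sts_rep {B D : Type u} [CStarAlgebra B] [CStarAlgebra D]
    [TopologicalSpace.SeparableSpace D] (iB : B →⋆ₐ[ℂ] D) (hi : ∀ b, ‖iB b‖ = ‖b‖) {f : B → ℂ}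
    (hf : f ∈ Sts B) : ∃ (K : Type u) (_ : NormedAddCommGroup K) (_ : InnerProductSpace ℂ K)
      (_ : CompleteSpace K) (_ : TopologicalSpace.SeparableSpace K) (π : D →⋆ₐ[ℂ] (K →L[ℂ] K))
      (ζ : K), ∀ b, f b = ⟪ζ, π (iB b) ζ⟫_ℂ := by
  let i : B →ₗᵢ[ℂ] D := ⟨(iB : B →ₐ[ℂ] D).toLinearMap, hi⟩
  let f₁ : B →L[ℂ] ℂ := LinearMap.mkContinuous ⟨⟨f, hf.1⟩, hf.2.1⟩ 1 fun b => by
    rw [one_mul]; exact hf.2.2.1 b
  obtain ⟨g, g1, g2⟩ := exists_extension_norm_eq (LinearMap.range i.toLinearMap)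
    (f₁ ∘L (i.equivRange.symm : LinearMap.range i.toLinearMap →L[ℂ] B))
  have g3 : ∀ b, g (iB b) = f b := fun b => (g1 (i.equivRange b)).trans (by simp [f₁])
  obtain ⟨K, _, _, _, π, ζ, h1, h2⟩ := exists_rep (g : D →ₗ[ℂ] ℂ) (pos_of_norm g (by
    rw [g2]
    refine opNorm_le_bound _ zero_le_one fun x => ?_
    rw [one_mul, ← i.equivRange.symm.norm_map x]
    exact hf.2.2.1 _) (by rw [← map_one iB, g3, hf.2.2.2]))
  exact ⟨K, _, _, ‹_›, h2.separableSpace ((AddMonoidHomClass.continuous_of_bound π 1 fun a => by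
    simpa using NonUnitalStarAlgHom.norm_apply_le π a).clm_apply continuous_const), π, ζ,
    fun b => (g3 b).symm.trans (h1 _)⟩

variable {A B K J R : Type u} [CStarAlgebra A] [CStarAlgebra B] [NormedAddCommGroup K]
  [InnerProductSpace ℂ K] [CompleteSpace K] {ρ : B →⋆ₐ[ℂ] (K →L[ℂ] K)} {ζ : K} [Fintype J]
  [Fintype R] {c : R → J → ℂ}

theorem vs_sts (h0 : ζ ≠ 0) : vs ρ ζ ∈ Sts B := by
  have p : 0 < ‖ζ‖ ^ 2 := by positivity
  refine ⟨fun a b => by simp [vs, mul_add], fun z a => by simp [vs, mul_left_comm], fun a => ?_,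
    ?_⟩
  · rw [vs, norm_smul, Real.norm_of_nonneg (by positivity), inv_mul_le_iff₀ p]
    refine (norm_inner_le_norm _ _).trans ?_
    have := mul_le_mul_of_nonneg_left (le_of_opNorm_le _ (NonUnitalStarAlgHom.norm_apply_le ρ a) ζ)
      (norm_nonneg ζ)
    linarith
  · have : (‖ζ‖ : ℂ) ≠ 0 := by simpa using h0
    simp [vs, this]

theorem gfactorial {y0 : J → B} {r : J → ℝ} {s : ℝ} {f : B → ℂ} (hf : ∀ b, f b = ⟪ζ, ρ b ζ⟫_ℂ)
    (hm : ∀ s', s < s' → ∀ g ∈ Sts B, ∃ y : {y : J → B // ∀ j, ‖y j - y0 j‖ ≤ r j},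
      (g (df c y.1)).re < s')
    (he : f ∈ {f ∈ Sts B | ∀ y : {y : J → B // ∀ j, ‖y j - y0 j‖ ≤ r j},
      s ≤ (f (df c y.1)).re}.extremePoints ℝ) :
    ∀ p ∈ (com ρ).commutant, IsStarProjection p → (∀ x ∈ (com ρ).commutant, p * x = x * p) →
      p ζ = 0 ∨ p ζ = ζ := by
  intro p hp pp hz
  by_contra! c0
  have c1 : (1 - p) ζ ≠ 0 := by simpa [sub_eq_zero] using c0.2.symm
  have hz' : ∀ x ∈ (com ρ).commutant, (1 - p) * x = x * (1 - p) := fun x hx => by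
    rw [sub_mul, mul_sub, hz x hx, one_mul, mul_one]
  have k : ∀ q : K →L[ℂ] K, IsStarProjection q → (∀ x ∈ (com ρ).commutant, q * x = x * q) →
      ∀ x ∈ (com ρ).commutant, ⟪q ζ, x (q ζ)⟫_ℂ = ⟪ζ, (q * x) ζ⟫_ℂ := fun q hq hz x hx => by
    rw [← mul_apply_eq_comp, ← hz x hx, ← hq.isSelfAdjoint.star_eq, inner_star_left,
      hq.isSelfAdjoint.star_eq, ← mul_apply_eq_comp, ← mul_assoc, hq.isIdempotentElem.eq]
  have m1 := vs_sts (ρ := ρ) c0.1
  have m2 := vs_sts (ρ := ρ) c1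
  have t1 : 0 < ‖p ζ‖ ^ 2 := by have := c0.1; positivity
  have t2 : 0 < ‖(1 - p) ζ‖ ^ 2 := by positivity
  have t3 : ‖p ζ‖ ^ 2 + ‖(1 - p) ζ‖ ^ 2 = 1 := by
    have := he.1.1.2.2.2
    rw [hf, map_one, one_apply_eq_self, inner_self_eq_norm_sq_to_K] at this
    rw [← proj_sq pp, ← add_apply, add_sub_cancel, one_apply_eq_self]
    exact Complex.ofReal_injective (by simpa using this)
  have gl := glue (c := c) hp pp hz fun y => by rw [← psi_eq, ← hf]; exact he.1.2 y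
  have e := he.2 ⟨m1, fun y => by
    rw [vs_eq]
    exact arith t1 t2 t3 gl (fun s' hs => by simpa only [vs_eq] using hm s' hs _ m2) y⟩
    ⟨m2, fun y => by
      rw [vs_eq]
      exact arith t2 t1 (by linarith) (fun y z => (gl z y).trans_eq (add_comm _ _))
        (fun s' hs => by simpa only [vs_eq] using hm s' hs _ m1) y⟩
    ⟨_, _, t1, t2, t3, funext fun b => by
      simp only [Pi.add_apply, Pi.smul_apply, vs, smul_smul, mul_inv_cancel₀ t1.ne',
        mul_inv_cancel₀ t2.ne', one_smul]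
      rw [k p pp hz _ (mem_bic b), k _ pp.one_sub hz' _ (mem_bic b), ← inner_add_right,
        ← add_apply, ← add_mul, add_sub_cancel, one_mul, hf]⟩
  have := bic_dense hp ![(((‖p ζ‖ ^ 2)⁻¹ : ℝ) : ℂ) • p ζ, -ζ] ![p ζ, ζ] fun a => by
    have := congrFun e a
    rw [hf, vs] at this
    simpa [inner_smul_left, add_neg_eq_zero, mul_comm] using this
  have e2 : ⟪ζ, p ζ⟫_ℂ = (‖p ζ‖ ^ 2 : ℝ) := by
    have := k p pp hz 1 (one_mem _)
    rw [mul_one, one_apply_eq_self, inner_self_eq_norm_sq_to_K] at this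
    rw [← this]
    simp
  simp only [Fin.sum_univ_two, Matrix.cons_val_zero, Matrix.cons_val_one, inner_smul_left,
    inner_neg_left, Complex.conj_ofReal] at this
  rw [k p pp hz p hp, pp.isIdempotentElem.eq, e2] at this
  norm_cast at this
  rw [inv_mul_cancel₀ t1.ne'] at this
  linarith

theorem gxS (h : GLocStmt.{u}) : GXStmt.{u} := by
  obtain ⟨C, C1, h⟩ := h
  have dK := distK_pos
  have : 0 ≤ C * distK ^ 2 := by positivity
  refine ⟨48 * (C * distK ^ 2) + 4, by linarith, fun A B D _ _ _ _ iA iB δ δ0 hδ hA hB hi τ pos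
    J R _ _ n c hc η η0 => ?_⟩
  choose y1 hy using hA
  obtain ⟨κ, hκ⟩ : ∃ κ, κ = C * (16 * distK ^ 2 * δ) + δ := ⟨_, rfl⟩
  have κ0 : 0 ≤ κ := by rw [hκ]; positivity
  have main : ∀ η, 0 < η → ∀ f ∈ Sts B,
      ∃ y : {y : J → B // ∀ j, ‖y j - y1 (n j)‖ ≤ 3 * (κ * ‖n j‖)}, (f (df c y.1)).re < η := by
    intro η η0 f0 h0
    by_contra! c0
    obtain ⟨s, s1, hm, f, he⟩ := exists_ext_max (sts_compact B) (fun
      (y : {y : J → B // ∀ j, ‖y j - y1 (n j)‖ ≤ 3 * (κ * ‖n j‖)}) f => (f (df c y.1)).re)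
      (fun y => by fun_prop) ⟨fun j => y1 (n j), fun j => by simp; positivity⟩ h0 c0
    obtain ⟨K, _, _, _, _, π, ζ, hf⟩ := sts_rep iB hi he.1.1
    have nπ : ∀ {x y : D} {r : ℝ}, ‖x - y‖ ≤ r → ‖π x - π y‖ ≤ r := fun k => by
      rw [← map_sub]; exact (NonUnitalStarAlgHom.norm_apply_le π _).trans k
    obtain ⟨q, Φ, q1, q2, q3, q4, hΦ⟩ := h K (com (π.comp iA)).commutant
      (com (π.comp iB)).commutant ζ (16 * distK ^ 2 * δ) (by positivity) (by nlinarith)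
      (near_bic _ δ0.le fun b => (hB b).imp fun a ha => nπ ha)
      (near_bic _ δ0.le fun a => ⟨y1 a, nπ (hy a)⟩) (gfactorial (ρ := π.comp iB) hf hm he)
    let x : J → Alg (com (π.comp iA)).commutant := fun j => ⟨π.comp iA (n j), mem_bic _⟩
    have := le_psi (c := c) (v := fun
      (y : {y : J → B // ∀ j, ‖y j - y1 (n j)‖ ≤ 3 * (κ * ‖n j‖)}) j => π.comp iB (y.1 j) ζ)
      (fun y => by rw [← psi_eq]; exact (he.1.2 y).trans_eq (by rw [hf]; rfl))
      (w := fun j => (Φ (x j)).1 ζ) fun e e0 => by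
        choose m m1 m2 using fun j => kap (ζ := ζ) (sub_mem (Φ (x j)).2
          (mul_mem q1 (mem_bic (y1 (n j))))) e0
        refine ⟨⟨fun j => y1 (n j) + m j, fun j => ?_⟩, fun j => le_trans (le_of_eq ?_) (m2 j)⟩
        · rw [add_sub_cancel_left]
          refine (m1 j).trans (mul_le_mul_of_nonneg_left ?_ (by norm_num))
          have a1 := (hΦ (x j)).trans (mul_le_mul_of_nonneg_left
            (NonUnitalStarAlgHom.norm_apply_le (π.comp iA) (n j)) (by positivity))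
          have a2 : ‖q * (π (iA (n j)) - π (iB (y1 (n j)))) * q‖ ≤ δ * ‖n j‖ :=
            (norm_mul_le _ _).trans ((mul_le_of_le_one_right (norm_nonneg _) q2.norm_le).trans
              ((norm_mul_le _ _).trans ((mul_le_of_le_one_left (norm_nonneg _) q2.norm_le).trans
                (nπ (hy _)))))
          refine le_trans (le_of_eq ?_) ((norm_add_le_of_le a1 a2).trans_eq (by rw [hκ]; ring))
          congr 1
          have := q3 _ (mem_bic (ρ := π.comp iB) (y1 (n j)))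
          rw [StarAlgHom.comp_apply] at this ⊢
          rw [mul_sub, sub_mul, mul_assoc q (π (iB _)), ← this, ← mul_assoc q q,
            q2.isIdempotentElem.eq]
          exact (sub_add_sub_cancel _ _ _).symm
        · rw [q3 _ (mem_bic _), sub_apply, mul_apply_eq_comp, q4, map_add, add_apply, sub_sub]
    have z : psi c (fun j => (Φ (x j)).1 ζ) = 0 := sum_eq_zero fun r _ => by
      have e1 : ∑ j, c r j • x j = 0 := Subtype.ext (by
        simpa [x] using congrArg (π.comp iA) (hc r))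
      have e2 := congrArg (fun t => (Φ t).1 ζ) e1
      simp only [map_sum, map_smul, map_zero] at e2
      simpa using e2
    linarith
  obtain ⟨K, _, _, _, π, ζ, hτ, -⟩ := exists_rep τ pos
  have fin : ∀ y : {y : J → B // ∀ j, ‖y j - y1 (n j)‖ ≤ 3 * (κ * ‖n j‖)}, ∀ j,
      ‖iB (y.1 j) - iA (n j)‖ ≤ (48 * (C * distK ^ 2) + 4) * δ * ‖n j‖ := fun y j => by
    have a1 := y.2 j
    rw [← hi, map_sub] at a1
    have a2 := hy (n j)
    rw [norm_sub_rev] at a2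
    refine (norm_sub_le_norm_sub_add_norm_sub _ _ _).trans ((add_le_add a1 a2).trans_eq ?_)
    rw [hκ]; ring
  rcases eq_or_ne ζ 0 with rfl | h0
  · exact ⟨_, fin ⟨fun j => y1 (n j), fun j => by simp; positivity⟩, fun r => by
      simpa [hτ] using η0.le⟩
  have p : 0 < ‖ζ‖ ^ 2 := by positivity
  obtain ⟨y, hy⟩ := main ((‖ζ‖ ^ 2)⁻¹ * η) (by positivity) _ (vs_sts (ρ := π) h0)
  refine ⟨_, fin y, fun r => ?_⟩
  rw [vs, Complex.smul_re, smul_eq_mul, ← hτ, df, map_sum, Complex.re_sum] at hy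
  exact (single_le_sum (f := fun r => (τ (star (∑ j, c r j • y.1 j) * ∑ j, c r j • y.1 j)).re)
    (fun r _ => (Complex.nonneg_iff.1 (pos _)).1) (mem_univ r)).trans
      (lt_of_mul_lt_mul_left hy (by positivity)).le

end Vale.Agent.P096
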